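import Vale.Agent.P160R.Odlyzko.Layers

/-!
# The classes of the cube killed by a prime power
-/

namespace Vale.Agent.P160R

open Finset Matrix
open scoped Classical

variable {ι : Type} [Fintype ι] [DecidableEq ι]

theorem qVec_sub (B : Matrix ι ι ℤ) (x y : ι → ℤ) : qVec B (x - y) = qVec B x - qVec B y := by
  rw [qVec, qVec, qVec, ← mulVec_sub]
  congr 1
  funext i
  simp

/-- Clearing denominators away from `p`. -/
theorem exists_scaled {p : ℕ} (hp : p.Prime) {B : Matrix ι ι ℤ} (hB : B.det ≠ 0) :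
    ∃ D : ℕ, ¬ p ∣ D ∧ (∀ (i : ℕ) (x : ι → ℤ), (∀ l, pExp p (qVec B x l) ≤ i) →
      ∃ w : ι → ℤ, (∀ l, (w l : ℚ) = (D : ℚ) * (p : ℚ) ^ i * qVec B x l) ∧
        B.mulVec w = ((D : ℤ) * (p : ℤ) ^ i) • x) := by
  have hd : B.det.natAbs ≠ 0 := Int.natAbs_ne_zero.2 hB
  have : Fact p.Prime := ⟨hp⟩
  refine ⟨B.det.natAbs / p ^ padicValNat p B.det.natAbs, ?_, fun i x hx => ?_⟩
  · have := Nat.not_dvd_ordCompl hp hd
    rwa [Nat.factorization_def _ hp] at this
  set D := B.det.natAbs / p ^ padicValNat p B.det.natAbs with hD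
  have hu : IsUnit (B.map (Int.cast : ℤ → ℚ)).det := by
    have e : (B.map (Int.cast : ℤ → ℚ)).det = (B.det : ℚ) :=
      (RingHom.map_det (Int.castRingHom ℚ) B).symm
    rw [e, isUnit_iff_ne_zero]
    exact Int.cast_ne_zero.2 hB
  have hden : ∀ l, (qVec B x l).den ∣ D * p ^ i := by
    intro l
    set q := (qVec B x l).den with hq
    have h1 : q ∣ B.det.natAbs := by
      have e : qVec B x l = ((B.adjugate.mulVec x l : ℤ) : ℚ) / (B.det : ℚ) := by
        rw [qVec, qInv, Matrix.inv_def, smul_mulVec, Pi.smul_apply, smul_eq_mul]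
        have h1 : (B.map (Int.cast : ℤ → ℚ)).det = (B.det : ℚ) :=
          (RingHom.map_det (Int.castRingHom ℚ) B).symm
        have h2 : (B.map (Int.cast : ℤ → ℚ)).adjugate = B.adjugate.map (Int.cast : ℤ → ℚ) :=
          (RingHom.map_adjugate (Int.castRingHom ℚ) B).symm
        rw [h1, h2, Ring.inverse_eq_inv, inv_mul_eq_div]
        congr 1
        simp [mulVec, dotProduct]
      have h := Rat.den_dvd (B.adjugate.mulVec x l) B.det
      rw [Rat.divInt_eq_div, ← e] at h
      exact Int.natCast_dvd.1 h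
    have h2 : p ^ padicValNat p q ∣ p ^ i := pow_dvd_pow p (hx l)
    have h3 : q / p ^ padicValNat p q ∣ D := by
      simp only [hD, ← Nat.factorization_def _ hp]
      exact Nat.ordCompl_dvd_ordCompl_of_dvd h1 p
    calc q = q / p ^ padicValNat p q * p ^ padicValNat p q :=
          (Nat.div_mul_cancel pow_padicValNat_dvd).symm
      _ ∣ D * p ^ i := Nat.mul_dvd_mul h3 h2
  choose d hd using hden
  refine ⟨fun l => (qVec B x l).num * d l, fun l => ?_, ?_⟩
  · calc (((qVec B x l).num * d l : ℤ) : ℚ) = qVec B x l * (qVec B x l).den * d l := by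
          rw [Rat.mul_den_eq_num]; push_cast; ring
      _ = qVec B x l * (((qVec B x l).den * d l : ℕ) : ℚ) := by push_cast; ring
      _ = _ := by rw [← hd l]; push_cast; ring
  · funext m
    apply Int.cast_injective (α := ℚ)
    have h1 : (B.map (Int.cast : ℤ → ℚ)).mulVec (qVec B x) = fun i => (x i : ℚ) := by
      rw [qVec, qInv, mulVec_mulVec, mul_nonsing_inv _ hu, one_mulVec]
    have h2 := congrFun h1 m
    simp only [mulVec, dotProduct, Matrix.map_apply] at h2
    simp only [mulVec, dotProduct, Int.cast_sum, Int.cast_mul, Pi.smul_apply, smul_eq_mul,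
      Int.cast_pow, Int.cast_natCast]
    rw [← h2, mul_sum]
    refine sum_congr rfl fun l _ => ?_
    have h3 : (((qVec B x l).num * d l : ℤ) : ℚ) = (D : ℚ) * (p : ℚ) ^ i * qVec B x l := by
      calc (((qVec B x l).num * d l : ℤ) : ℚ) = qVec B x l * (qVec B x l).den * d l := by
            rw [Rat.mul_den_eq_num]; push_cast; ring
        _ = qVec B x l * (((qVec B x l).den * d l : ℕ) : ℚ) := by push_cast; ring
        _ = _ := by rw [← hd l]; push_cast; ring
    push_cast at h3
    rw [h3]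
    ring

/-- The classes killed by `p ^ i` that meet the cube are at most the classes of the layer `i`. -/
theorem exists_classes {p : ℕ} (hp : p.Prime) [NeZero p] {B : Matrix ι ι ℤ} (hB : B.det ≠ 0)
    (e i : ℕ) (he : ∀ x y : ι → Bool, ∀ l, ((p : ℤ) ^ e) ∣ signVec x l - signVec y l) :
    ∃ F : Finset (ι → ℤ), F.card ≤ (kerImage B p e i).card ∧
      ∀ x : ι → Bool, (∀ l, pExp p (qVec B (signVec x) l) ≤ i) →
        ∃ y ∈ F, ∀ l, PInt p (qVec B (signVec x - y) l) := by
  obtain ⟨D, hD, hw⟩ := exists_scaled hp hB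
  set X := univ.filter fun x : ι → Bool => ∀ l, pExp p (qVec B (signVec x) l) ≤ i
  rcases X.eq_empty_or_nonempty with hX | ⟨x₀, hx₀⟩
  · refine ⟨∅, by simp, fun x hx => ?_⟩
    have : x ∈ X := mem_filter.2 ⟨mem_univ x, hx⟩
    simp [hX] at this
  have hx₀' := (mem_filter.1 hx₀).2
  have hwx : ∀ x : X, ∃ w : ι → ℤ, (∀ l, (w l : ℚ) = (D : ℚ) * (p : ℚ) ^ i * qVec B (signVec x.1) l) ∧
      B.mulVec w = ((D : ℤ) * (p : ℤ) ^ i) • signVec x.1 :=
    fun x => hw i _ (mem_filter.1 x.2).2
  choose w hw1 hw2 using hwx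
  -- the key of a class
  let key : X → ι → ZMod (p ^ i) := fun x l => ((w x l - w ⟨x₀, hx₀⟩ l : ℤ) : ZMod (p ^ i))
  have hkey : ∀ x, key x ∈ kerImage B p e i := by
    intro x
    refine mem_kerImage.2 ⟨w x - w ⟨x₀, hx₀⟩, rfl, fun l => ?_⟩
    rw [mulVec_sub, hw2, hw2, Pi.sub_apply, Pi.smul_apply, Pi.smul_apply, smul_eq_mul, smul_eq_mul,
      ← mul_sub, pow_add]
    exact mul_dvd_mul (dvd_mul_left _ _) (he _ _ l)
  let rep : (ι → ZMod (p ^ i)) → ι → ℤ := fun v =>
    if h : ∃ x, key x = v then signVec h.choose.1 else 0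
  refine ⟨(univ.image key).image rep, (card_image_le.trans (card_le_card ?_)), fun x hx => ?_⟩
  · intro v hv
    obtain ⟨x, -, rfl⟩ := mem_image.1 hv
    exact hkey x
  set x' : X := ⟨x, mem_filter.2 ⟨mem_univ x, hx⟩⟩
  have hex : ∃ z, key z = key x' := ⟨x', rfl⟩
  refine ⟨rep (key x'), mem_image_of_mem _ (mem_image_of_mem _ (mem_univ _)), fun l => ?_⟩
  simp only [rep, dif_pos hex]
  have hz := congrFun hex.choose_spec l
  set z := hex.choose
  simp only [key] at hz
  rw [ZMod.intCast_eq_intCast_iff_dvd_sub, sub_sub_sub_cancel_right] at hz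
  push_cast at hz
  obtain ⟨k, hk⟩ := hz
  have hq : (D : ℚ) * qVec B (signVec x - signVec z.1) l = (k : ℚ) := by
    have hpi : ((p : ℚ) ^ i) ≠ 0 := pow_ne_zero _ (Nat.cast_ne_zero.2 hp.ne_zero)
    have h1 : ((w x' l : ℤ) : ℚ) - (w z l : ℚ) = (p : ℚ) ^ i * k := by exact_mod_cast hk
    rw [hw1, hw1] at h1
    rw [qVec_sub, Pi.sub_apply]
    exact mul_left_cancel₀ hpi (by linear_combination h1)
  have hden : (qVec B (signVec x - signVec z.1) l).den ∣ D := by
    have hD0 : D ≠ 0 := fun h => hD (h ▸ dvd_zero p)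
    have e : qVec B (signVec x - signVec z.1) l = (k : ℚ) / ((D : ℤ) : ℚ) := by
      rw [Int.cast_natCast, eq_div_iff (Nat.cast_ne_zero.2 hD0), mul_comm]
      exact hq
    have h := Rat.den_dvd k (D : ℤ)
    rw [Rat.divInt_eq_div, ← e] at h
    exact_mod_cast h
  exact fun h => hD (h.trans hden)

/-- The first layer at `p` for `e = 0`. -/
theorem card_layer_zero {p : ℕ} [Fact p.Prime] (B : Matrix ι ι ℤ) :
    (kerImage B p 0 1).card ≤ p ^ corankMod p B := by
  have hp : p.Prime := Fact.out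
  rw [corankMod, dif_pos hp]
  refine le_trans ?_ (card_ker_zmod (B.map (Int.cast : ℤ → ZMod p))).le
  refine card_le_card_of_injOn (fun v l => ((v l).val : ZMod p)) ?_ ?_
  · intro v hv
    obtain ⟨w, rfl, hw⟩ := mem_kerImage.1 hv
    have hl : ∀ l, (((w l : ZMod (p ^ 1)).val : ℕ) : ZMod p) = (w l : ZMod p) := fun l => by
      rw [ZMod.natCast_val, ZMod.cast_intCast (dvd_of_eq (pow_one p).symm)]
    simp only [coe_filter, Finset.mem_univ, true_and, Set.mem_ofPred_eq, hl]
    funext m
    have h := (ZMod.intCast_zmod_eq_zero_iff_dvd _ p).2 (by simpa using hw m)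
    simpa [mulVec, dotProduct] using h
  · intro v _ v' _ h
    funext l
    have h2 := congrFun h l
    simp only at h2
    rw [ZMod.natCast_eq_natCast_iff'] at h2
    refine ZMod.val_injective _ ?_
    have hv := ZMod.val_lt (v l)
    have hv' := ZMod.val_lt (v' l)
    simp only [pow_one] at hv hv'
    rwa [Nat.mod_eq_of_lt (by simpa using hv), Nat.mod_eq_of_lt (by simpa using hv')] at h2

/-- The first layer at `2` for `e = 1`, in terms of the zero-one matrix of the negative signs. -/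
theorem card_layer_two {B : Matrix ι ι ℤ} (hB : IsSign B) (B' : Matrix ι ι (ZMod 2))
    (hB' : ∀ a b, B' a b = if B a b = 1 then 0 else 1) :
    (kerImage B 2 1 1).card ≤ 2 ^ (Fintype.card ι - B'.rank + 1) := by
  have : Fact (Nat.Prime 2) := ⟨Nat.prime_two⟩
  set Ker := univ.filter fun v : ι → ZMod 2 => B'.mulVec v = 0
  set T := univ.filter fun v : ι → ZMod 2 => ∃ c : ZMod 2, B'.mulVec v = fun _ => c
  let cst : (ι → ZMod 2) → (ι → ZMod 2) := fun v => B'.mulVec v
  have hT : T.card ≤ Ker.card * 2 := by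
    refine (card_le_mul_card_image (f := cst) T Ker.card fun b hb => ?_).trans
      (Nat.mul_le_mul_left _ ?_)
    · obtain ⟨v₀, hv₀, rfl⟩ := mem_image.1 hb
      refine card_le_card_of_injOn (fun v => v - v₀) (fun v hv => ?_) ?_
      · simp only [coe_filter, Set.mem_ofPred_eq] at hv
        simp [Ker, mulVec_sub, show B'.mulVec v = B'.mulVec v₀ from hv.2]
      · intro a _ b _ h
        exact sub_left_injective h
    · refine (card_le_card (t := (univ : Finset (ZMod 2)).image fun c => fun _ : ι => c) ?_).trans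
        card_image_le
      intro b hb
      obtain ⟨v, hv, rfl⟩ := mem_image.1 hb
      obtain ⟨c, hc⟩ := (mem_filter.1 hv).2
      exact mem_image.2 ⟨c, mem_univ c, hc.symm⟩
  refine le_of_le_of_eq ?_ (show Ker.card * 2 = 2 ^ (Fintype.card ι - B'.rank + 1) by
    rw [pow_succ, ← card_ker_zmod B'])
  refine le_trans ?_ hT
  refine card_le_card_of_injOn (fun v l => ((v l).val : ZMod 2)) ?_ ?_
  · intro v hv
    obtain ⟨w, rfl, hw⟩ := mem_kerImage.1 hv
    have hl : ∀ l, (((w l : ZMod (2 ^ 1)).val : ℕ) : ZMod 2) = (w l : ZMod 2) := fun l => by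
      rw [ZMod.natCast_val, ZMod.cast_intCast (dvd_of_eq (pow_one 2).symm)]
    simp only [T, coe_filter, Finset.mem_univ, true_and, Set.mem_ofPred_eq, hl]
    let G : Matrix ι ι ℤ := Matrix.of fun a b => if B a b = 1 then 0 else 1
    have hG : ∀ m, B.mulVec w m = (∑ l, w l) - 2 * G.mulVec w m := fun m => by
      simp only [mulVec, dotProduct, mul_sum, ← sum_sub_distrib]
      refine sum_congr rfl fun l _ => ?_
      rcases hB.2 m l with e | e <;> simp [G, e]; ring
    have hcast : ∀ m, B'.mulVec (fun l => (w l : ZMod 2)) m = ((G.mulVec w m : ℤ) : ZMod 2) := by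
      intro m
      simp only [mulVec, dotProduct, Int.cast_sum, Int.cast_mul]
      refine sum_congr rfl fun l _ => ?_
      rw [hB']
      split_ifs with e <;> simp [G, e]
    rcases isEmpty_or_nonempty ι with hι | ⟨⟨m₀⟩⟩
    · exact ⟨0, funext fun m => isEmptyElim m⟩
    refine ⟨((G.mulVec w m₀ : ℤ) : ZMod 2), funext fun m => ?_⟩
    rw [hcast, ZMod.intCast_eq_intCast_iff_dvd_sub]
    have h1 := hw m
    have h2 := hw m₀
    rw [hG] at h1 h2
    have h3 := dvd_sub h1 h2
    norm_num at h3 ⊢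
    omega
  · intro v _ v' _ h
    funext l
    have h2 := congrFun h l
    simp only at h2
    rw [ZMod.natCast_eq_natCast_iff'] at h2
    refine ZMod.val_injective _ ?_
    have hv := ZMod.val_lt (v l)
    have hv' := ZMod.val_lt (v' l)
    simp only [pow_one] at hv hv'
    rwa [Nat.mod_eq_of_lt (by simpa using hv), Nat.mod_eq_of_lt (by simpa using hv')] at h2

end Vale.Agent.P160R
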