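import Vale.Agent.P160R.Basic

/-!
# Kernels modulo prime powers, layer by layer
-/

namespace Vale.Agent.P160R

open Finset Matrix
open scoped Classical

variable {ι : Type} [Fintype ι] [DecidableEq ι]

/-- The classes modulo `p ^ i` of the vectors in the kernel modulo `p ^ (i + e)`. -/
noncomputable def kerImage (B : Matrix ι ι ℤ) (p : ℕ) [NeZero p] (e i : ℕ) :
    Finset (ι → ZMod (p ^ i)) :=
  univ.filter fun v => ∃ w : ι → ℤ, (fun l => (w l : ZMod (p ^ i))) = v ∧
    ∀ l, ((p : ℤ) ^ (i + e)) ∣ B.mulVec w l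

theorem mem_kerImage {B : Matrix ι ι ℤ} {p : ℕ} [NeZero p] {e i : ℕ} {v : ι → ZMod (p ^ i)} :
    v ∈ kerImage B p e i ↔ ∃ w : ι → ℤ, (fun l => (w l : ZMod (p ^ i))) = v ∧
      ∀ l, ((p : ℤ) ^ (i + e)) ∣ B.mulVec w l := by
  simp [kerImage]

/-- The kernel of the first layer bounds every layer. -/
theorem card_kerImage_le (B : Matrix ι ι ℤ) (p : ℕ) [NeZero p] (e i : ℕ) :
    (kerImage B p e i).card ≤ (kerImage B p e 1).card ^ i := by
  induction i with
  | zero =>
    have : Subsingleton (ZMod (p ^ 0)) := by rw [pow_zero]; infer_instance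
    exact (card_le_one.2 fun a _ b _ => funext fun l => Subsingleton.elim _ _).trans_eq
      (pow_zero _).symm
  | succ i ih =>
    set N := (kerImage B p e 1).card
    let red : (ι → ZMod (p ^ (i + 1))) → ι → ZMod (p ^ i) := fun v l =>
      ZMod.castHom (pow_dvd_pow p (Nat.le_succ i)) (ZMod (p ^ i)) (v l)
    have hred : ∀ w : ι → ℤ, red (fun l => (w l : ZMod (p ^ (i + 1)))) =
        fun l => (w l : ZMod (p ^ i)) := fun w => funext fun l => map_intCast _ _
    have himg : (kerImage B p e (i + 1)).image red ⊆ kerImage B p e i := by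
      intro v hv
      obtain ⟨u, hu, rfl⟩ := mem_image.1 hv
      obtain ⟨w, rfl, hw⟩ := mem_kerImage.1 hu
      exact mem_kerImage.2 ⟨w, (hred w).symm,
        fun l => (pow_dvd_pow _ (by omega)).trans (hw l)⟩
    refine (card_le_mul_card_image (f := red) (kerImage B p e (i + 1)) N ?_).trans ?_
    · intro b hb
      obtain ⟨u, hu, rfl⟩ := mem_image.1 hb
      obtain ⟨w₀, rfl, hw₀⟩ := mem_kerImage.1 hu
      -- the fibre is the translate of the first layer
      let sh : (ι → ZMod (p ^ 1)) → ι → ZMod (p ^ (i + 1)) := fun t l =>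
        ((w₀ l + (p : ℤ) ^ i * ((t l).val : ℤ) : ℤ) : ZMod (p ^ (i + 1)))
      refine (card_le_card (t := (kerImage B p e 1).image sh) ?_).trans card_image_le
      intro v hv
      obtain ⟨hv1, hv2⟩ := mem_filter.1 hv
      obtain ⟨w, rfl, hw⟩ := mem_kerImage.1 hv1
      rw [hred, hred] at hv2
      have hd : ∀ l, ∃ d : ℤ, w l - w₀ l = (p : ℤ) ^ i * d := fun l => by
        have h := (ZMod.intCast_eq_intCast_iff_dvd_sub _ _ _).1 (congrFun hv2 l).symm
        push_cast at h
        exact h
      choose d hd using hd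
      refine mem_image.2 ⟨fun l => (d l : ZMod (p ^ 1)), mem_kerImage.2 ⟨d, rfl, fun l => ?_⟩, ?_⟩
      · have hp : (p : ℤ) ^ i ≠ 0 := pow_ne_zero _ (Int.natCast_ne_zero.2 (NeZero.ne p))
        have e1 : (p : ℤ) ^ i * B.mulVec d l = B.mulVec w l - B.mulVec w₀ l := by
          simp only [mulVec, dotProduct, mul_sum, ← sum_sub_distrib]
          exact sum_congr rfl fun m _ => by rw [← mul_sub, hd]; ring
        have e2 := dvd_sub (hw l) (hw₀ l)
        rw [← e1, show i + 1 + e = i + (1 + e) by ring, pow_add] at e2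
        exact (mul_dvd_mul_iff_left hp).1 e2
      · funext l
        show ((w₀ l + (p : ℤ) ^ i * (((d l : ZMod (p ^ 1))).val : ℤ) : ℤ) : ZMod (p ^ (i + 1))) = _
        rw [ZMod.intCast_eq_intCast_iff_dvd_sub, ← sub_sub, hd]
        have h := Int.dvd_sub_self_of_emod_eq (show d l % ((p ^ 1 : ℕ) : ℤ) =
          ((d l : ZMod (p ^ 1)).val : ℤ) from (ZMod.val_intCast _).symm)
        rw [← mul_sub]
        push_cast [pow_succ] at h ⊢
        simp only [pow_zero, one_mul] at h
        exact mul_dvd_mul_left _ (dvd_sub_comm.1 h)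
    · exact (Nat.mul_le_mul_left N ((card_le_card himg).trans ih)).trans_eq (pow_succ' N i).symm

/-- The kernel of a matrix over a prime field. -/
theorem card_ker_zmod {p : ℕ} [Fact p.Prime] (B : Matrix ι ι (ZMod p)) :
    (univ.filter fun v : ι → ZMod p => B.mulVec v = 0).card = p ^ (Fintype.card ι - B.rank) := by
  have h1 : (univ.filter fun v : ι → ZMod p => B.mulVec v = 0).card =
      Fintype.card (LinearMap.ker B.mulVecLin) := by
    rw [← Fintype.card_subtype]
    exact Fintype.card_congr (Equiv.subtypeEquivRight fun v => by simp [LinearMap.mem_ker])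
  have h2 := LinearMap.finrank_range_add_finrank_ker B.mulVecLin
  rw [Module.finrank_fintype_fun_eq_card] at h2
  rw [h1, Module.card_eq_pow_finrank (K := ZMod p), ZMod.card, Matrix.rank]
  congr 1
  omega

end Vale.Agent.P160R
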