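import Vale.Agent.P160R.Basic

/-!
# Rows spanning the row space of a symmetric matrix
-/

namespace Vale.Agent.P160R

open Finset Matrix

variable {ι : Type} [Fintype ι] [DecidableEq ι] {K : Type} [Field K]

/-- Independent rows spanning all rows. -/
theorem exists_basis_rows (A : Matrix ι ι K) : ∃ S : Finset ι, S.card = A.rank ∧
    LinearIndependent K (fun i : {i // i ∈ S} => A i.1) ∧
      ∀ i, A i ∈ Submodule.span K (Set.range fun i : {i // i ∈ S} => A i.1) := by
  classical
  obtain ⟨κ, a, ha, hspan, hli⟩ := exists_linearIndependent' K A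
  have : Fintype κ := Fintype.ofInjective a ha
  set S : Finset ι := univ.image a
  let φ : κ ≃ {i // i ∈ S} := Equiv.ofBijective (fun k => ⟨a k, mem_image_of_mem a (mem_univ k)⟩)
    ⟨fun k k' h => ha (congrArg Subtype.val h), fun ⟨i, hi⟩ => by
      obtain ⟨k, -, rfl⟩ := mem_image.1 hi
      exact ⟨k, rfl⟩⟩
  have hrange : Set.range (fun i : {i // i ∈ S} => A i.1) = Set.range (A ∘ a) := by
    rw [← φ.surjective.range_comp (fun i : {i // i ∈ S} => A i.1)]
    rfl
  refine ⟨S, ?_, (linearIndependent_equiv φ).1 hli, fun i => ?_⟩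
  · rw [card_image_of_injective _ ha, card_univ, Matrix.rank_eq_finrank_span_row,
      show Set.range A.row = Set.range A from rfl, ← hspan, finrank_span_eq_card hli]
  · rw [hrange, hspan]
    exact Submodule.subset_span ⟨i, rfl⟩

omit [Fintype ι] [DecidableEq ι] in
/-- A combination of the rows is determined by its coordinates at the spanning rows' indices. -/
theorem combination_eq {A : Matrix ι ι K} (hA : A.IsSymm) {S : Finset ι}
    (hspan : ∀ i, A i ∈ Submodule.span K (Set.range fun i : {i // i ∈ S} => A i.1))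
    (c c' : {i // i ∈ S} → K)
    (h : ∀ s ∈ S, ∑ k, c k * A k.1 s = ∑ k, c' k * A k.1 s) (j : ι) :
    ∑ k, c k * A k.1 j = ∑ k, c' k * A k.1 j := by
  obtain ⟨d, hd⟩ := (Submodule.mem_span_range_iff_exists_fun K).1 (hspan j)
  have e : ∀ k, A k j = ∑ s, d s * A k s.1 := fun k => by
    rw [← hA.apply k j]
    have := congrFun hd k
    simp only [Finset.sum_apply, Pi.smul_apply, smul_eq_mul] at this
    rw [← this]
    exact sum_congr rfl fun s _ => by rw [hA.apply k s.1]
  simp only [e, mul_sum]
  conv_lhs => rw [sum_comm]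
  conv_rhs => rw [sum_comm]
  refine sum_congr rfl fun s _ => ?_
  have h1 := congrArg (fun t => d s * t) (h s.1 s.2)
  simp only [mul_sum] at h1
  calc ∑ k, c k * (d s * A k.1 s.1) = ∑ k, d s * (c k * A k.1 s.1) :=
        sum_congr rfl fun k _ => by ring
    _ = ∑ k, d s * (c' k * A k.1 s.1) := h1
    _ = _ := sum_congr rfl fun k _ => by ring

/-- The principal block of independent spanning rows is nonsingular. -/
theorem principal_li {A : Matrix ι ι K} (hA : A.IsSymm) {S : Finset ι}
    (hli : LinearIndependent K (fun i : {i // i ∈ S} => A i.1))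
    (hspan : ∀ i, A i ∈ Submodule.span K (Set.range fun i : {i // i ∈ S} => A i.1)) :
    LinearIndependent K
      (A.submatrix (fun i : {i // i ∈ S} => i.1) (fun i : {i // i ∈ S} => i.1)).row := by
  rw [Fintype.linearIndependent_iff]
  intro c hc
  refine Fintype.linearIndependent_iff.1 hli c ?_
  funext j
  simp only [Finset.sum_apply, Pi.smul_apply, smul_eq_mul, Pi.zero_apply]
  rw [combination_eq hA hspan c 0 (fun s hs => ?_) j]
  · simp
  · have := congrFun hc ⟨s, hs⟩
    simpa [Matrix.row] using this

end Vale.Agent.P160R
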